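import Vale.Agent.P042.Base

/-!
P042 (sets avoiding intersective polynomial differences): lower bounds for `r_h(N)`, beyond the
greedy bound `N^(1-1/k)`, for every polynomial.
-/

set_option autoImplicit false

namespace Vale.Agent.Results.P042.LowerBounds

open Polynomial Vale.Agent.P042

/-- (1) For every `h ∈ ℤ[x]` of degree `k ≥ 2` with positive leading coefficient,
`r_h(N) ≥ c N^(1-1/k) log N` for large `N`. (2) If `k = 2`, then even
`r_h(N) ≥ N^(1/2) exp(c log N / log log N)` for large `N`. -/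
theorem result :
    (∀ h : ℤ[X], 2 ≤ h.natDegree → 0 < h.leadingCoeff →
      ∃ c : ℝ, 0 < c ∧ ∃ N0 : ℕ, ∀ N : ℕ, N0 ≤ N →
        c * (N : ℝ) ^ (1 - 1 / (h.natDegree : ℝ)) * Real.log N ≤ rmax h N) ∧
    (∀ h : ℤ[X], h.natDegree = 2 → 0 < h.leadingCoeff →
      ∃ c : ℝ, 0 < c ∧ ∃ N0 : ℕ, ∀ N : ℕ, N0 ≤ N →
        (N : ℝ) ^ (1 / 2 : ℝ) * Real.exp (c * Real.log N / Real.log (Real.log N)) ≤ rmax h N) :=
  ⟨partA, partB⟩

end Vale.Agent.Results.P042.LowerBounds
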